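import Vale.Agent.P355.MUB

open scoped ComplexConjugate

/-- No complete set of seven mutually unbiased bases of dimension six has all projector entries
in a conjugation-stable field whose real elements lie in a field where six is not a sum of two
squares; this holds for every number field of odd degree. -/
theorem Vale.Agent.Results.P355.NoCompleteOddField.result :
    (∀ F : IntermediateField ℚ ℝ, (∀ a b : F, a ^ 2 + b ^ 2 ≠ 6) →
    ∀ K : Subfield ℂ, (∀ z ∈ K, conj z ∈ K) → (∀ t : ℝ, (t : ℂ) ∈ K → t ∈ F) →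
    ¬ ∃ B : Fin 7 → OrthonormalBasis (Fin 6) ℂ (EuclideanSpace ℂ (Fin 6)),
      (∀ k l, k ≠ l → ∀ i j, ‖inner ℂ (B k i) (B l j)‖ ^ 2 = 1 / 6) ∧
      ∀ k i a b, B k i a * conj (B k i b) ∈ K) ∧
    ∀ F : IntermediateField ℚ ℝ, Odd (Module.finrank ℚ F) → ∀ a b : F, a ^ 2 + b ^ 2 ≠ 6 := by
  refine ⟨?_, Vale.Agent.P355.six_ne_odd⟩
  rintro F hF K hconj hreal ⟨B, hu, hK⟩
  refine Vale.Agent.P355.no_complete F hF K hconj hreal (fun k i a => B k i a) ?_ ?_ hK
  · intro k j m
    have h := (B k).inner_eq_ite m j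
    rw [PiLp.inner_apply] at h
    simpa [eq_comm] using h
  · intro k l hkl j m
    have h := hu l k hkl.symm m j
    rw [PiLp.inner_apply] at h
    rw [← h, Complex.sq_norm]
    simp
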